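import Crest.Agent.N255.Wz.Zo
import Crest.Agent.N255.Wv.Fam

/-!
# Row 255 (helper84): cut classes of the flat family, independence, span, construction
-/

set_option autoImplicit false
open Set

noncomputable section

namespace Crest.Agent.N255.Wz

open Tp Wn Wi

variable {X Y : Type} [TopologicalSpace X] [TopologicalSpace Y] {s s' : C(X, ℝ)} {𝒞 : Set (Set X)}
  {l r l' r' : ℕ → ℝ} {n z m : ℕ} {b : Bool} {k : Type} [Field k]

namespace Wv
variable {J : Type} [Fintype J] (V : Wv k s l r n J)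

theorem h_Cc (j : J) : V.h j ∈ Cc k univ k 1 := (V.mem j).1

theorem ct_Cc (j : J) : V.ct j ∈ Cc k univ k 1 := N255.Wv.ct_Cc (V.h_Cc j)

theorem ct_sub (j : J) : V.ct j - V.h j ∈ (On (Bs s l r (V.sd j) (V.sc j + 1))).van k k 1 :=
  N255.Wv.ct_sub

theorem ct_out (j : J) : V.ct j ∈ (On (Bs s l r (V.sd j) (V.sc j + 1))ᶜ).van k k 1 := N255.Wv.ct_van

/-- beyond the cut -/
theorem ct_van (j : J) : V.ct j ∈ (On (As s l r (!V.sd j) (V.sc j + 1))).van k k 1 :=
  van_mono As_not (V.ct_out j)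

/-- deep on the own side -/
theorem ct_van' (j : J) (e : m < V.sc j) : V.ct j ∈ (On (As s l r (V.sd j) m)).van k k 1 :=
  N255.Wv.ct_mem_van (V.van j m e)

theorem ct_ZP (j : J) : V.ct j ∈ ZP k (Bs s l r (V.sd j) (V.sc j + 1)) k 1 :=
  N255.Wv.ct_ZP (V.mem j) subset_rfl

theorem loc_le (j : J) : V.loc j ≤ 2 * n := lz_le (V.sc_lt j)

theorem loc_ne (j : J) : V.loc j ≠ n := lz_ne (V.sc_lt j)

theorem loc_mem {j : J} : V.loc j ∈ Tw n m ↔ m ≤ V.sc j := lz_mem (V.sc_lt j)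

theorem loc_inj {i j : J} (e : V.loc i = V.loc j) : V.sd i = V.sd j ∧ V.sc i = V.sc j :=
  lz_inj (V.sc_lt i) (V.sc_lt j) e

variable (h : Lr l r)
include h

/-- the source of `j` lives in one zone -/
theorem cob_ct_van {j : J} (e : z ≤ 2 * n) (e' : z ≠ V.loc j) :
    cob k (V.ct j) ∈ (On (zo s l r n z)).van k k 2 :=
  (h.zo_cut (V.sc_lt j) e e').elim (fun c => van_mono c (V.ct_ZP j).2)
    fun c => Sb.cob_mem (van_mono c (V.ct_van j))

theorem cob_ct_Zs {j : J} (e : z ≤ 2 * n) (e' : z ≠ V.loc j) :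
    cob k (V.ct j) ∈ (Zs 𝒞 s l r n z).van k k 2 :=
  Sb.van_mono Sb.inf_le_left (V.cob_ct_van h e e')

theorem cob_ct_Zw {j : J} (e : V.sc j < m) : cob k (V.ct j) ∈ (Zw 𝒞 s l r n m).van k k 2 :=
  van_Zw.2 fun _ hz => V.cob_ct_Zs h (Tw_le hz) fun c => e.not_ge (V.loc_mem.1 (c ▸ hz))

/-- inside its window the cut class is the class or zero -/
theorem ct_win {j : J} (e : V.sc j < m) : V.ct j - V.h j ∈ (On (win s (l m) (r m))).van k k 1 :=
  van_mono (win_sub_Bs.trans (h.Bs_anti e)) (V.ct_sub j)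

theorem ct_ZP_win {j : J} (e : V.sc j < m) : V.ct j ∈ ZP k (win s (l m) (r m)) k 1 :=
  ZP_mono (win_sub_Bs.trans (h.Bs_anti e)) (V.ct_ZP j)

/-- **independence** of the sources located in one zone -/
theorem ind_loc (h0 : Hc0 k X k 1) (ho : ∀ U ∈ 𝒞, IsOpen U) (hc : univ ⊆ ⋃₀ 𝒞) (x : J → k)
    (hz : ∀ j, x j ≠ 0 → V.loc j = z)
    (hx : ∑ j, x j • cob k (V.ct j) ∈ (Zs 𝒞 s l r n z).van k k 2) (j : J) : x j = 0 := by
  by_contra h1
  obtain rfl := hz j h1
  have e : ∀ i, x i ≠ 0 → V.sd i = V.sd j ∧ V.sc i = V.sc j := fun i q => V.loc_inj (hz i q)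
  have S : ∀ {f : J → Co k 1 X} {P : Submodule k (Co k 1 X)},
      (∀ i, V.sd i = V.sd j → V.sc i = V.sc j → f i ∈ P) → ∑ i, x i • f i ∈ P := fun q =>
    sum_mem fun i _ => by
      by_cases c : x i = 0
      · simp [c]
      · exact Submodule.smul_mem _ _ (q i (e i c).1 (e i c).2)
  set B := Bs s l r (V.sd j) (V.sc j + 1) with hB
  set φ := ∑ i, x i • V.ct i with hφ
  have a1 : φ ∈ ZP k B k 1 := S fun i a c => by rw [hB, ← a, ← c]; exact V.ct_ZP i
  have a2 : φ ∈ (On (As s l r (!V.sd j) (V.sc j + 1))).van k k 1 :=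
    S fun i a c => by rw [← a, ← c]; exact V.ct_van i
  have a3 : φ - ∑ i, x i • V.h i ∈ (On B).van k k 1 := by
    rw [hφ, ← Finset.sum_sub_distrib]
    simp only [← smul_sub]
    exact S fun i a c => by rw [hB, ← a, ← c]; exact V.ct_sub i
  have e' : cob k φ = ∑ i, x i • cob k (V.ct i) := by simp [hφ]
  obtain ⟨ψ, a, c⟩ := N255.Wv.zp_of_sm (𝒰 := insert B (insert (As s l r (!V.sd j) (V.sc j + 1))
      {W | ∃ U ∈ 𝒞, W = zo s l r n (V.loc j) ∩ U})) (W := univ)
    (by rintro U (rfl | rfl | ⟨U, hU, rfl⟩); exacts [isOpen_Bs, isOpen_As, isOpen_zo.inter (ho U hU)])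
    (fun y _ => by
      by_cases p : y ∈ B
      · exact ⟨_, .inl rfl, p⟩
      by_cases p' : y ∈ As s l r (!V.sd j) (V.sc j + 1)
      · exact ⟨_, .inr (.inl rfl), p'⟩
      obtain ⟨U, hU, hy⟩ := hc (mem_univ y)
      exact ⟨_, .inr (.inr ⟨U, hU, rfl⟩), h.zo_lz (V.sc_lt j) p p', hy⟩) a1.1
    (Sb.Z_mono Sb.inf_le_right (by
      rw [Sb.mem_Z, Sm_insert, Sm_insert, Sb.van_sup, Sb.van_sup]
      refine ⟨a1.2, Sb.cob_mem a2, fun σ ⟨_, ⟨U, hU, q⟩, hσ⟩ => ?_⟩
      rw [e']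
      exact hx σ ⟨(q ▸ hσ).trans inter_subset_left, U, hU, (q ▸ hσ).trans inter_subset_right⟩))
  refine h1 (V.ind _ _ x e (BP_mono (h.Bs_anti (Nat.le_succ _)) ?_) j)
  have := sub_mem (add_mem (BP_mono (subset_univ _) (h0 a))
    (van_le_BP (Sb.van_mono (On_le_Sm (mem_insert _ _)) c))) (van_le_BP a3)
  convert this using 1
  abel

/-- the form used for the dual functionals -/
theorem ind_cob (h0 : Hc0 k X k 1) (ho : ∀ U ∈ 𝒞, IsOpen U) (hc : univ ⊆ ⋃₀ 𝒞) (j : J) (x : J → k)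
    (hx : ∑ i, x i • cob k (V.ct i) ∈ (Zs 𝒞 s l r n (V.loc j)).van k k 2) : x j = 0 := by
  classical
  have := V.ind_loc h h0 ho hc (fun i => if V.loc i = V.loc j then x i else 0)
    (fun i q => by by_contra c; exact q (if_neg c)) (z := V.loc j) ?_ j
  · simpa using this
  have q : ∑ i, (x i - if V.loc i = V.loc j then x i else 0) • cob k (V.ct i) ∈
      (Zs 𝒞 s l r n (V.loc j)).van k k 2 := sum_mem fun i _ => by
    split_ifs with c
    · simp
    · exact Submodule.smul_mem _ _ (V.cob_ct_Zs h (V.loc_le j) (Ne.symm c))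
  convert sub_mem hx q using 1
  simp only [sub_smul, Finset.sum_sub_distrib]; abel

/-- span on a side by the cut classes -/
theorem span_ct (hm : m < n) {φ : Co k 1 X} (hφ : φ ∈ ZP k (Bs s l r b (m + 1)) k 1) :
    ∃ x : J → k, (∀ j, x j ≠ 0 → V.sd j = b ∧ V.sc j ≤ m) ∧
      φ - ∑ j, x j • V.ct j ∈ BP k (Bs s l r b (m + 2)) k 1 := by
  obtain ⟨x, h1, h2⟩ := V.span b m hm φ hφ
  refine ⟨x, h1, ?_⟩
  have : ∑ j, x j • (V.ct j - V.h j) ∈ BP k (Bs s l r b (m + 2)) k 1 := sum_mem fun j _ => by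
    by_cases c : x j = 0
    · simp [c]
    · refine Submodule.smul_mem _ _ (van_le_BP (van_mono ?_ (V.ct_sub j)))
      rw [(h1 j c).1]; exact h.Bs_anti (by have := (h1 j c).2; omega)
  convert sub_mem h2 this using 1
  simp only [smul_sub, Finset.sum_sub_distrib]; abel

/-- **span on a window** -/
theorem span_win (h0 : Hc0 k X k 2) (hm : m < n) {φ : Co k 1 X}
    (hφ : φ ∈ ZP k (win s (l (m + 1)) (r (m + 1))) k 1) : ∃ x : J → k, (∀ j, x j ≠ 0 → V.sc j ≤ m) ∧
      φ - ∑ j, x j • V.ct j ∈ BP k (win s (l (m + 2)) (r (m + 2))) k 1 := by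
  rw [win_Bs] at hφ
  obtain ⟨c, h1, h2⟩ := mv_surj isOpen_Bs isOpen_Bs
    (show Bs s l r true (m + 1) ∪ Bs s l r false (m + 1) = univ from lo_union_hi (h.lt _ _)) h0 hφ
  obtain ⟨x, a1, a2⟩ := V.span_ct h hm h2
  obtain ⟨y, b1, b2⟩ := V.span_ct h hm h1
  refine ⟨x + y, fun j q => ?_, ?_⟩
  · by_cases p : x j = 0
    · exact (b1 j (by simpa [p] using q)).2
    · exact (a1 j p).2
  · convert add_mem (BP_mono win_sub_Bs a2) (BP_mono win_sub_Bs b2) using 1
    simp only [Pi.add_apply, add_smul, Finset.sum_add_distrib]; abel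

end Wv

section map
variable (φ : Y ≃ₜ X) {t : C(Y, ℝ)} (e : ∀ y, t y = s (φ y))
include e

theorem win_map (a c : ℝ) : win t a c = φ ⁻¹' win s a c := by
  ext y; simp only [win, mem_ofPred_eq, mem_preimage, e]

theorem lo_map (a : ℝ) : lo t a = φ ⁻¹' lo s a := by
  ext y; simp only [lo, mem_ofPred_eq, mem_preimage, e]

theorem hi_map (a : ℝ) : hi t a = φ ⁻¹' hi s a := by
  ext y; simp only [hi, mem_ofPred_eq, mem_preimage, e]

theorem zo_map : zo t l r n z = φ ⁻¹' zo s l r n z := win_map φ e _ _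

theorem Bs_map : Bs t l r b m = φ ⁻¹' Bs s l r b m := by
  cases b; exacts [hi_map φ e _, lo_map φ e _]

theorem As_map : As t l r b m = φ ⁻¹' As s l r b m := by
  cases b; exacts [hi_map φ e _, lo_map φ e _]

/-- transport along a homeomorphism -/
def Wv.map {J : Type} [Fintype J] (V : Wv k s l r n J) : Wv k t l r n J where
  sd := V.sd
  sc := V.sc
  h j := pull k (φ : C(Y, X)) (V.h j)
  sc_lt := V.sc_lt
  mem j := N255.Wv.pull_ZP φ (fun _ hx => by rwa [Bs_map φ e] at hx) (V.mem j)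
  van j m c := pull_mem (fun _ hx => by rwa [As_map φ e] at hx) (V.van j m c)
  span b m c a ha := by
    obtain ⟨x, h1, hx⟩ := V.span b m c _
      (N255.Wv.pull_ZP φ.symm (fun y hy => by simpa [Bs_map φ e] using hy) ha)
    refine ⟨x, h1, ?_⟩
    simpa [N255.Wv.symm_pull] using N255.Wv.pull_BP φ (U' := Bs t l r b (m + 2))
      (fun _ hx => by rwa [Bs_map φ e] at hx) hx
  ind b m x c hx := V.ind b m x c (by
    simpa [N255.Wv.pull_symm] using N255.Wv.pull_BP φ.symm (U' := Bs s l r b (m + 2))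
      (fun y hy => by simpa [Bs_map φ e] using hy) hx)

theorem Wv.map_ct {J : Type} [Fintype J] (V : Wv k s l r n J) (j : J) :
    (V.map φ e).ct j = pull k (φ : C(Y, X)) (V.ct j) := by
  rw [Wv.ct, Wv.ct, N255.Wv.pull_ct, Bs_map φ e]; rfl

theorem Wv.map_loc {J : Type} [Fintype J] (V : Wv k s l r n J) (j : J) :
    (V.map φ e).loc j = V.loc j := rfl

end map

section ofVar
open N255.Wv

variable {A B A' B' : ℕ → Set X} (h : Lr l r) (V : Var k 0 A B) (V' : Var k 0 A' B') (K : ℕ)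
  (hA : ∀ m, A m = As s l r true m) (hB : ∀ m, B m = Bs s l r true m)
  (hA' : ∀ m, A' m = As s l r false m) (hB' : ∀ m, B' m = Bs s l r false m)

theorem var_ind {K : ℕ} (x : V.Ix K → k) (hx : ∀ q, x q ≠ 0 → Var.sc q = m)
    (e : ∑ q, x q • Var.cl q ∈ BP k (B (m + 2)) k 1) (q : V.Ix K) : x q = 0 := by
  by_contra c
  obtain ⟨a, j⟩ := q
  obtain rfl : (a : ℕ) = m := hx _ c
  refine c (V.ind a (fun j => x ⟨a, j⟩) ?_ j)
  rwa [Fintype.sum_sigma, Finset.sum_eq_single a] at e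
  · refine fun b _ hb => Finset.sum_eq_zero fun i _ => ?_
    by_cases p : x ⟨b, i⟩ = 0
    · rw [p, zero_smul]
    · exact absurd (Fin.ext (hx _ p)) hb
  · simp

/-- the flat family given by the variables of the two sides -/
def Wv.ofVar : Wv k s l r (K + 1) (V.Ix K ⊕ V'.Ix K) where
  sd := Sum.elim (fun _ => true) fun _ => false
  sc := Sum.elim Var.sc Var.sc
  h := Sum.elim Var.cl Var.cl
  sc_lt := by rintro (q | q); exacts [q.1.2, q.1.2]
  mem := by
    rintro (q | q)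
    · exact hB _ ▸ Var.cl_mem q
    · exact hB' _ ▸ Var.cl_mem q
  van := by
    rintro (q | q) m c
    · exact hA _ ▸ Var.cl_van' (fun _ _ e => by rw [hA, hA]; exact h.As_mono e) q c
    · exact hA' _ ▸ Var.cl_van' (fun _ _ e => by rw [hA', hA']; exact h.As_mono e) q c
  span := by
    rintro (_ | _) m c φ hφ
    · obtain ⟨x, h1, h2⟩ := Var.span (V := V') (K := K) (fun _ _ e => by
        rw [hB', hB']; exact h.Bs_anti e) (Nat.lt_succ_iff.1 c) (hB' _ ▸ hφ)
      refine ⟨Sum.elim 0 x, ?_, by simpa [hB'] using h2⟩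
      rintro (q | q) p
      exacts [(p rfl).elim, ⟨rfl, not_lt.1 fun a => p (h1 q a)⟩]
    · obtain ⟨x, h1, h2⟩ := Var.span (V := V) (K := K) (fun _ _ e => by
        rw [hB, hB]; exact h.Bs_anti e) (Nat.lt_succ_iff.1 c) (hB _ ▸ hφ)
      refine ⟨Sum.elim x 0, ?_, by simpa [hB] using h2⟩
      rintro (q | q) p
      exacts [⟨rfl, not_lt.1 fun a => p (h1 q a)⟩, (p rfl).elim]
  ind := by
    rintro (_ | _) m x c e
    · have z : ∀ q, x (.inl q) = 0 := fun q => by_contra fun p => by simpa using (c _ p).1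
      rintro (q | q)
      exacts [z q, var_ind V' (fun q => x (.inr q)) (fun q p => (c _ p).2)
        (by simpa [z, hB'] using e) q]
    · have z : ∀ q, x (.inr q) = 0 := fun q => by_contra fun p => by simpa using (c _ p).1
      rintro (q | q)
      exacts [var_ind V (fun q => x (.inl q)) (fun q p => (c _ p).2)
        (by simpa [z, hB] using e) q, z q]

theorem Wv.ofVar_ct_inl (q : V.Ix K) :
    (Wv.ofVar h V V' K hA hB hA' hB').ct (.inl q) = Var.cc (fun m => B (m + 1)) q := by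
  rw [Var.cc, hB]; rfl

theorem Wv.ofVar_ct_inr (q : V'.Ix K) :
    (Wv.ofVar h V V' K hA hB hA' hB').ct (.inr q) = Var.cc (fun m => B' (m + 1)) q := by
  rw [Var.cc, hB']; rfl

/-- the number of variables of small scale does not depend on `K` -/
theorem card_sum (m : ℕ) :
    (Finset.univ.filter fun j : V.Ix K ⊕ V'.Ix K => Sum.elim Var.sc Var.sc j ≤ m).card ≤
      ∑ a ∈ Finset.range (m + 1), V.n a + ∑ a ∈ Finset.range (m + 1), V'.n a := by
  classical
  refine le_trans (le_of_eq ?_) (add_le_add (Var.card_le (V := V) (K := K) m) (Var.card_le (V := V') (K := K) m))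
  simp only [Finset.card_filter, Fintype.sum_sum_type]
  rfl

end ofVar

end Crest.Agent.N255.Wz

end
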